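import Vale.Agent.P342.Main
import Vale.Agent.P342.Clean
import Vale.Agent.P342.LevelD
import Vale.Agent.P342.Exp
import Vale.Agent.P342.Spec
import Vale.Agent.P342.Plant
import Vale.Agent.P342.Level
import Vale.Agent.P342.Mix
import Vale.Agent.P342.Term
import Vale.Agent.P342.Core
import Vale.Agent.P342.Fried
import Vale.Agent.P342.LemJ
import Vale.Agent.P342.DMR
import Vale.Agent.P342.Smooth
import Vale.Agent.P342.GraphPT
import Vale.Agent.P342.GraphSound
import Vale.Agent.P342.Arc
import Vale.Agent.P325.PCPMain
import Vale.Agent.P325.Marg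
import Vale.Agent.P325.Pow
import Vale.Agent.P325.Comp
import Vale.Agent.P325.Rep

namespace Vale.Agent.Results.P342.ApproxColoring

open Vale.Agent.P325 Vale.Agent.P342

/-- Approximate graph colouring: a polynomial-time reduction from 3-SAT to the problem of telling
3-colourable graphs from graphs that are not `c`-colourable. -/
theorem result : ∀ c : ℕ, 3 ≤ c → ∃ f : List Bool → List (ℕ × ℕ),
    (∃ M : Turing.TM2ComputableInPolyTime id (fun E => bitsOf (natsE E)) f,
      ∀ j, Finite (M.tm.Γ j)) ∧
    ∀ x : List Bool, (∀ e ∈ f x, e.1 ≠ e.2) ∧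
      ((∃ φ : CNF3, bitsOf (natsCNF φ) = x ∧ Sat φ) → (graphOf (f x)).Colorable 3) ∧
      (¬ (∃ φ : CNF3, bitsOf (natsCNF φ) = x ∧ Sat φ) → ¬ (graphOf (f x)).Colorable c) :=
  fun c hc => final_of (arc_of (gap_of (smooth_of (pcp_of margThm powThm compThm) parRep)
    (core_of (level_of (exp_of (levelD_of cleanThm)) specAtomThm) (term_of mixThm) besselThm
      (plant_of besselThm) specCardThm) graphPTThm graphCompThm
    (graphSound_of (dmr_of (lemJ_of friedThm))))) c (by omega)

end Vale.Agent.Results.P342.ApproxColoring
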